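import Vale.Agent.Lib.P074B.Defs
import Vale.Agent.Lib.P074B.Equiv

open Vale.Agent.P074B

/-- For `d ≥ 2` the stability exponents of quadratic optimal transport maps from a uniform measure
on a convex body are exactly the numbers in `(0, 1/3]`; so their supremum is `1/3` and it is
attained. -/
theorem Vale.Agent.Results.P074.AllExponents.result (d : ℕ) (hd : 2 ≤ d) :
    (∀ α : ℝ, Stable d α ↔ 0 < α ∧ α ≤ 1 / 3) ∧ sSup {α : ℝ | Stable d α} = 1 / 3 ∧
      Stable d (sSup {α : ℝ | Stable d α}) := by
  have h : {α : ℝ | Stable d α} = Set.Ioc 0 (1 / 3) := Set.ext fun α => stable_char hd α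
  rw [h, csSup_Ioc (by norm_num)]
  exact ⟨stable_char hd, rfl, (stable_char hd _).2 ⟨by norm_num, le_rfl⟩⟩
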