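import Vale.Agent.Lib.P074.Defs
import Vale.Agent.Lib.P074.Upper
import Vale.Agent.Lib.P074.Lower

open Vale.Agent.P074

/-- In every dimension `d ≥ 2` the largest admissible exponent is exactly `1 / 3`: the exponent
`1 / 3` is admissible and no larger exponent is. -/
theorem Vale.Agent.Results.P074.ExactThird.result :
    ∀ d : ℕ, 2 ≤ d → IsGreatest {α : ℝ | Admissible d α} (1 / 3) :=
  fun _ hd => ⟨admissible_third (le_trans one_le_two hd), fun _ hα =>
    le_of_not_gt fun h => not_admissible_of_gt hd h hα⟩
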