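import Vale.Agent.Lib.P074B.Equiv

set_option autoImplicit false

/-! # P074: the stability exponent of quadratic optimal transport maps -/

namespace Vale.Agent.Results.P074.LargestExponent

open MeasureTheory

/-- Euclidean space `ℝ^d`. -/
abbrev E (d : ℕ) : Type := EuclideanSpace ℝ (Fin d)

/-- `T_# ρ = μ` for the uniform probability measure `ρ` on `K`: `T` is a Borel map and, for every
Borel set `B`, the proportion of the points `x` of `K` with `T x ∈ B` is `μ B`. -/
def Transports {d : ℕ} (K : Set (E d)) (T : E d → E d) (μ : Measure (E d)) : Prop :=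
  Measurable T ∧ ∀ B : Set (E d), MeasurableSet B → volume {x ∈ K | T x ∈ B} / volume K = μ B

/-- `T` is a quadratic optimal transport map `T_μ` from the uniform probability measure `ρ` on `K`
to `μ`: it minimizes `∫ |x - T x|^2 dρ`, the average over `K`, among the Borel maps with
`T_# ρ = μ`. -/
def IsTransportMap {d : ℕ} (K : Set (E d)) (μ : Measure (E d)) (T : E d → E d) : Prop :=
  Transports K T μ ∧ ∀ S : E d → E d, Transports K S μ →
    ⨍ x in K, ‖x - T x‖ ^ 2 ≤ ⨍ x in K, ‖x - S x‖ ^ 2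

/-- `π` is a coupling of `μ` and `ν`. -/
def Couples {d : ℕ} (π : Measure (E d × E d)) (μ ν : Measure (E d)) : Prop :=
  ∀ B : Set (E d), MeasurableSet B → π {z | z.1 ∈ B} = μ B ∧ π {z | z.2 ∈ B} = ν B

/-- `W_p(μ, ν)`, the infimum over the couplings `π` of `(∫ |y - z|^p dπ(y, z))^(1/p)`. -/
noncomputable def W {d : ℕ} (p : ℝ) (μ ν : Measure (E d)) : ℝ :=
  sInf {r : ℝ | ∃ π : Measure (E d × E d), Couples π μ ν ∧
    r = (∫ z, ‖z.1 - z.2‖ ^ p ∂π) ^ (1 / p)}

/-- `α ∈ (0, 1]` is admissible in dimension `d`: for every compact convex `K` with nonempty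
interior and every nonempty compact `Y` there is `C` with `‖T_μ - T_ν‖_{L²(ρ)} ≤ C W_2(μ, ν)^α` for
all Borel probability measures `μ`, `ν` supported in `Y`. -/
def Admissible (d : ℕ) (α : ℝ) : Prop :=
  0 < α ∧ α ≤ 1 ∧
    ∀ K Y : Set (E d), IsCompact K → Convex ℝ K → (interior K).Nonempty → IsCompact Y →
      Y.Nonempty → ∃ C : ℝ, ∀ μ ν : ProbabilityMeasure (E d),
        (μ : Measure (E d)).support ⊆ Y → (ν : Measure (E d)).support ⊆ Y →
          ∀ T S : E d → E d, IsTransportMap K μ T → IsTransportMap K ν S →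
            Real.sqrt (⨍ x in K, ‖T x - S x‖ ^ 2) ≤ C * W 2 (μ : Measure (E d)) ν ^ α

section bridge

variable {d : ℕ}

theorem transports_iff {K : Set (E d)} (hK : IsCompact K) (T : E d → E d) (μ : Measure (E d)) :
    Transports K T μ ↔ MeasurePreserving T (ProbabilityTheory.cond volume K) μ := by
  have key : Measurable T → ∀ B : Set (E d), MeasurableSet B →
      (ProbabilityTheory.cond volume K).map T B = volume {x ∈ K | T x ∈ B} / volume K := by
    intro hT B hB
    rw [Measure.map_apply hT hB, ProbabilityTheory.cond_apply hK.measurableSet, mul_comm,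
      ← div_eq_mul_inv]
    rfl
  constructor
  · rintro ⟨hT, h⟩
    refine ⟨hT, Measure.ext fun B hB => ?_⟩
    rw [key hT B hB, h B hB]
  · rintro ⟨hT, h⟩
    refine ⟨hT, fun B hB => ?_⟩
    rw [← key hT B hB, h]

theorem avg_eq (K : Set (E d)) (f : E d → ℝ) :
    ⨍ x in K, f x = ∫ x, f x ∂(ProbabilityTheory.cond volume K) :=
  setAverage_eq' volume f K

theorem isTransportMap_iff {K : Set (E d)} (hK : IsCompact K) (μ : Measure (E d))
    (T : E d → E d) :
    IsTransportMap K μ T ↔ P074B.IsOptimal (ProbabilityTheory.cond volume K) μ T := by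
  unfold IsTransportMap P074B.IsOptimal
  simp only [transports_iff hK, avg_eq]

theorem couples_iff (π : Measure (E d × E d)) (μ ν : Measure (E d)) :
    Couples π μ ν ↔ π.fst = μ ∧ π.snd = ν := by
  constructor
  · intro h
    refine ⟨Measure.ext fun B hB => ?_, Measure.ext fun B hB => ?_⟩
    · rw [Measure.fst_apply hB]
      exact (h B hB).1
    · rw [Measure.snd_apply hB]
      exact (h B hB).2
  · rintro ⟨rfl, rfl⟩ B hB
    rw [Measure.fst_apply hB, Measure.snd_apply hB]
    exact ⟨rfl, rfl⟩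

theorem W_two (μ ν : Measure (E d)) : W 2 μ ν = P074B.wass μ ν := by
  unfold W P074B.wass
  congr 1
  ext r
  constructor
  · rintro ⟨π, h, rfl⟩
    obtain ⟨h1, h2⟩ := (couples_iff π μ ν).1 h
    refine ⟨π, h1, h2, ?_⟩
    rw [Real.sqrt_eq_rpow]
    simp only [Real.rpow_two]
  · rintro ⟨π, h1, h2, rfl⟩
    refine ⟨π, (couples_iff π μ ν).2 ⟨h1, h2⟩, ?_⟩
    rw [Real.sqrt_eq_rpow]
    simp only [Real.rpow_two]

theorem support_iff {Y : Set (E d)} (hY : IsCompact Y) (μ : ProbabilityMeasure (E d)) :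
    (μ : Measure (E d)).support ⊆ Y ↔ (μ : Measure (E d)) Y = 1 := by
  constructor
  · intro h
    have h1 : (μ : Measure (E d)) Yᶜ = 0 :=
      measure_mono_null (Set.compl_subset_compl.mpr h) Measure.measure_compl_support
    exact (prob_compl_eq_zero_iff hY.measurableSet).1 h1
  · intro h
    apply Measure.support_subset_of_isClosed hY.isClosed
    rw [mem_ae_iff]
    exact (prob_compl_eq_zero_iff hY.measurableSet).2 h

theorem admissible_iff (α : ℝ) : Admissible d α ↔ P074B.Stable d α := by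
  constructor
  · rintro ⟨h0, h1, h⟩
    refine ⟨h0, h1, fun K Y hK hKc hKi hY hYn => ?_⟩
    obtain ⟨C, hC⟩ := h K Y hK hKc hKi hY hYn
    refine ⟨C, fun μ ν hμp hνp hμ hν T S hT hS => ?_⟩
    let μ' : ProbabilityMeasure (E d) := ⟨μ, hμp⟩
    let ν' : ProbabilityMeasure (E d) := ⟨ν, hνp⟩
    have h2 : Real.sqrt (⨍ x in K, ‖T x - S x‖ ^ 2) ≤ C * W 2 μ ν ^ α :=
      hC μ' ν' ((support_iff hY μ').2 hμ) ((support_iff hY ν').2 hν) T S
        ((isTransportMap_iff hK μ T).2 hT) ((isTransportMap_iff hK ν S).2 hS)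
    rw [avg_eq, W_two] at h2
    exact h2
  · rintro ⟨h0, h1, h⟩
    refine ⟨h0, h1, fun K Y hK hKc hKi hY hYn => ?_⟩
    obtain ⟨C, hC⟩ := h K Y hK hKc hKi hY hYn
    refine ⟨C, fun μ ν hμ hν T S hT hS => ?_⟩
    rw [avg_eq, W_two]
    exact hC μ ν inferInstance inferInstance ((support_iff hY μ).1 hμ) ((support_iff hY ν).1 hν)
      T S ((isTransportMap_iff hK _ T).1 hT) ((isTransportMap_iff hK _ S).1 hS)

end bridge

/-- **Q1.**  In every dimension `d ≥ 2` the supremum `α*_d` of the admissible exponents is `1 / 3`,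
and it is attained; in particular `1 / 2` is not admissible. -/
theorem result : ∀ d : ℕ, 2 ≤ d →
    sSup {α : ℝ | Admissible d α} = 1 / 3 ∧ Admissible d (1 / 3) ∧ ¬ Admissible d (1 / 2) := by
  intro d hd
  have h : {α : ℝ | Admissible d α} = Set.Ioc 0 (1 / 3) :=
    Set.ext fun α => (admissible_iff α).trans (P074B.stable_char hd α)
  refine ⟨?_, ?_, ?_⟩
  · rw [h, csSup_Ioc (by norm_num)]
  · exact (admissible_iff _).2 ((P074B.stable_char hd _).2 ⟨by norm_num, le_rfl⟩)
  · intro hhalf
    have := ((P074B.stable_char hd _).1 ((admissible_iff _).1 hhalf)).2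
    norm_num at this

end Vale.Agent.Results.P074.LargestExponent
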