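import Vale.Agent.Lib.P074.Defs
import Vale.Agent.Lib.P074.Upper

open Vale.Agent.P074

/-- In every dimension `d ≥ 2`, no exponent larger than `1 / 3` is admissible. -/
theorem Vale.Agent.Results.P074.UpperThird.result :
    ∀ d : ℕ, 2 ≤ d → ∀ α : ℝ, 1 / 3 < α → ¬ Admissible d α :=
  fun _ hd _ hα => not_admissible_of_gt hd hα
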